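import Vale.Agent.P235.LL.H21.Ctrl
import Vale.Agent.P235.LL.Proc

/-! P235 LL, leaf CTRL (helper21): the field `ctrl` of `IsDom` (and `dart`, `foot`) for a domain whose
coordinates are `IsCoord`. -/

namespace Vale.Agent.P235.LL.H21

open SimpleGraph H510

variable {V : Type} {G : SimpleGraph V} {ℓ : Sym2 V → ℝ} {D : Dom V}
  {ct : Fin 3 × Bool → V → ℝ}

theorem tau_true (i : Fin 3) : D.tau (i, true) = D.w i := by
  funext b
  simp [Dom.tau]

theorem tau_false (i : Fin 3) : D.tau (i, false) = fun _ => 0 := by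
  funext b
  simp [Dom.tau]

/-- the dart value `X` is `dv` -/
theorem X_eq_dv {k : Fin 3 × Bool}
    (hC : IsCoord G ℓ D.U (D.P k.1) (D.tau k) (ct k) (D.c k) (D.s k)) {v b : V}
    (h : D.Dart G v b) : D.X ℓ k v b = dv ℓ (D.P k.1) (D.tau k) (ct k) (v, b) := by
  classical
  unfold Dom.X
  by_cases hb : b ∈ D.P k.1
  · rw [if_pos hb, dv_mem (e := (v, b)) hb]
  · rw [if_neg hb, dv_not (e := (v, b)) hb, (s_foreign hC h.1 h.2.1 hb h.2.2).2]

/-- **The field `ctrl` of `IsDom`.** -/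
theorem ctrl_dom (hc : G.Connected) (hl : ∀ e ∈ G.edgeSet, 0 < ℓ e)
    (hcov : ∀ v b, D.Dart G v b → ∃ i, b ∈ D.P i)
    (hpd : ∀ i, ∀ b ∈ D.P i, ∀ b' ∈ D.P i, pathDist G ℓ b b' ≤ |D.w i b - D.w i b'|)
    (ha : ∀ i, PieceA G ℓ D.U (D.P i) (D.w i))
    (hC : ∀ k, IsCoord G ℓ D.U (D.P k.1) (D.tau k) (ct k) (D.c k) (D.s k)) :
    ∀ v b v' b', D.Dart G v b → D.Dart G v' b' →
      pathDist G ℓ b b' ≤ 2 * ∑ k, |D.X ℓ k v b - D.X ℓ k v' b'| := by
  intro v b v' b' h h'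
  obtain ⟨i, hi⟩ := hcov v' b' h'
  have hw := hC (i, true)
  have h0 := hC (i, false)
  rw [tau_true] at hw
  rw [tau_false] at h0
  have key := ctrl hc hl (ha i) (hpd i) hw h0 (v' := v') h.1 h.2.2 hi
  have k1 : ∀ {x y : V}, D.Dart G x y →
      D.X ℓ (i, true) x y = dv ℓ (D.P i) (D.w i) (ct (i, true)) (x, y) := by
    intro x y hxy
    rw [X_eq_dv (hC (i, true)) hxy, tau_true]
  have k2 : ∀ {x y : V}, D.Dart G x y →
      D.X ℓ (i, false) x y = dv ℓ (D.P i) (fun _ => 0) (ct (i, false)) (x, y) := by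
    intro x y hxy
    rw [X_eq_dv (hC (i, false)) hxy, tau_false]
  rw [← k1 h, ← k1 h', ← k2 h, ← k2 h'] at key
  have hsum : |D.X ℓ (i, true) v b - D.X ℓ (i, true) v' b'| +
      |D.X ℓ (i, false) v b - D.X ℓ (i, false) v' b'| ≤
        ∑ k : Fin 3 × Bool, |D.X ℓ k v b - D.X ℓ k v' b'| := by
    have hne : ((i, true) : Fin 3 × Bool) ≠ (i, false) := by simp
    have := Finset.sum_le_sum_of_subset_of_nonneg
      (f := fun k : Fin 3 × Bool => |D.X ℓ k v b - D.X ℓ k v' b'|)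
      (Finset.subset_univ ({(i, true), (i, false)} : Finset (Fin 3 × Bool)))
      (fun _ _ _ => abs_nonneg _)
    rwa [Finset.sum_pair hne] at this
  have hn := abs_nonneg (D.X ℓ (i, true) v b - D.X ℓ (i, true) v' b')
  linarith

/-- The field `dart` of `IsDom`. -/
theorem dart_dom (hl : ∀ e ∈ G.edgeSet, 0 < ℓ e)
    (hC : ∀ k, IsCoord G ℓ D.U (D.P k.1) (D.tau k) (ct k) (D.c k) (D.s k)) :
    ∀ k v b, D.Dart G v b → |D.c k v - D.X ℓ k v b| ≤ D.s k v * ℓ s(v, b) := by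
  intro k v b h
  rw [X_eq_dv (hC k) h]
  exact dv_sub (hC k) hl h.1 h.2.1 h.2.2

/-- A function which is nonexpansive on the edges meeting `U` is nonexpansive along walks inside
`U`. -/
theorem f_walk {U : Set V} {f : V → ℝ}
    (hf : ∀ x ∈ U, ∀ y, G.Adj x y → |f x - f y| ≤ ℓ s(x, y)) {x y : V} (w : G.Walk x y)
    (hw : ∀ z ∈ w.support, z ∈ U) : |f x - f y| ≤ wl ℓ w := by
  induction w with
  | nil => simp
  | @cons u v z h w ih =>
    rw [wl_cons]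
    exact (abs_sub_le _ (f v) _).trans (add_le_add (hf u (hw u (by simp)) v h)
      (ih fun z hz => hw z (by simp [hz])))

/-- The field `foot` of `IsDom`. -/
theorem foot_dom (hpc : ∀ i, ∀ b ∈ D.P i, b ∉ D.U)
    (hC : ∀ k, IsCoord G ℓ D.U (D.P k.1) (D.tau k) (ct k) (D.c k) (D.s k)) :
    ∀ i v b, D.Dart G v b → ∃ v' a, D.Dart G v' a ∧ a ∈ D.P i ∧ ∀ f : V → ℝ,
      (∀ x ∈ D.U, ∀ y, G.Adj x y → |f x - f y| ≤ ℓ s(x, y)) →
        |f b - f a| ≤ D.X ℓ (i, false) v b := by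
  intro i v b h
  rw [X_eq_dv (hC (i, false)) h, tau_false]
  change ∃ v' a, D.Dart G v' a ∧ a ∈ D.P i ∧ ∀ f : V → ℝ,
      (∀ x ∈ D.U, ∀ y, G.Adj x y → |f x - f y| ≤ ℓ s(x, y)) →
        |f b - f a| ≤ dv ℓ (D.P i) (fun _ => 0) (ct (i, false)) (v, b)
  by_cases hb : b ∈ D.P i
  · refine ⟨v, b, h, hb, fun f _ => ?_⟩
    rw [dv_mem (e := (v, b)) hb, sub_self, abs_zero]
  · obtain ⟨v', a, w, hw, ha, hadj, hct⟩ := (hC (i, false)).ct_att v h.1
    refine ⟨v', a, ⟨hw v' w.end_mem_support, hpc i a ha, hadj⟩, ha, fun f hf => ?_⟩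
    rw [dv_not (e := (v, b)) hb]
    change |f b - f a| ≤ ℓ s(v, b) + ct (i, false) v
    rw [tau_false] at hct
    have h1 := hf v h.1 b h.2.2
    have h2 := f_walk hf w hw
    have h3 := hf v' (hw v' w.end_mem_support) a hadj
    rw [abs_sub_comm] at h1
    have h4 : |f b - f a| ≤ |f b - f v| + |f v - f v'| + |f v' - f a| :=
      (abs_sub_le _ (f v') _).trans (by gcongr; exact abs_sub_le _ _ _)
    have h5 : ct (i, false) v = wl ℓ w + ℓ s(v', a) + 0 := hct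
    linarith

end Vale.Agent.P235.LL.H21
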