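import Vale.Agent.P235.H510.Coord

/-! P235 LL, section (2), leaf CTRL (helper21): the values of the coordinates on the darts of a
domain, their Lipschitz properties, and CONTROL. -/

namespace Vale.Agent.P235.LL.H21

open SimpleGraph H510

variable {V : Type} {G : SimpleGraph V} {l : Sym2 V → ℝ}

/-! ### the path metric -/

theorem pd_le (hl : ∀ e ∈ G.edgeSet, 0 < l e) {x y : V} (w : G.Walk x y) :
    pathDist G l x y ≤ wl l w :=
  ciInf_le ⟨0, by rintro _ ⟨w, rfl⟩; exact wl_nonneg hl w⟩ w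

theorem le_pd (hc : G.Connected) {x y : V} {a : ℝ} (h : ∀ w : G.Walk x y, a ≤ wl l w) :
    a ≤ pathDist G l x y := by
  have : Nonempty (G.Walk x y) := hc x y
  exact le_ciInf h

theorem pd_nonneg (hl : ∀ e ∈ G.edgeSet, 0 < l e) (x y : V) : 0 ≤ pathDist G l x y :=
  Real.iInf_nonneg fun w => wl_nonneg hl w

theorem pd_self (hl : ∀ e ∈ G.edgeSet, 0 < l e) (x : V) : pathDist G l x x = 0 :=
  le_antisymm ((pd_le hl (Walk.nil : G.Walk x x)).trans_eq (wl_nil l x)) (pd_nonneg hl x x)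

theorem pd_comm (hc : G.Connected) (hl : ∀ e ∈ G.edgeSet, 0 < l e) (x y : V) :
    pathDist G l x y = pathDist G l y x :=
  le_antisymm (le_pd hc fun w => (pd_le hl w.reverse).trans_eq (wl_reverse l w))
    (le_pd hc fun w => (pd_le hl w.reverse).trans_eq (wl_reverse l w))

theorem pd_tri (hc : G.Connected) (hl : ∀ e ∈ G.edgeSet, 0 < l e) (x y z : V) :
    pathDist G l x z ≤ pathDist G l x y + pathDist G l y z := by
  have h1 : ∀ w : G.Walk x y, pathDist G l x z - wl l w ≤ pathDist G l y z := fun w =>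
    le_pd hc fun w' => by
      have := pd_le hl (w.append w')
      rw [wl_append] at this
      linarith
  have h2 : pathDist G l x z - pathDist G l y z ≤ pathDist G l x y :=
    le_pd hc fun w => by linarith [h1 w]
  linarith

/-- Shortest walks exist. -/
theorem exists_geod [Finite V] (hc : G.Connected) (hl : ∀ e ∈ G.edgeSet, 0 < l e) (x y : V) :
    ∃ w : G.Walk x y, w.IsPath ∧ wl l w = pathDist G l x y := by
  classical
  have := Fintype.ofFinite V
  have hne : Nonempty (G.Walk x y) := hc x y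
  obtain ⟨w0⟩ := hne
  have : Nonempty (G.Path x y) := ⟨⟨w0.bypass, w0.bypass_isPath⟩⟩
  obtain ⟨p, hp⟩ := Finite.exists_min fun p : G.Path x y => wl l p.1
  refine ⟨p.1, p.2, le_antisymm (le_pd hc fun w => ?_) (pd_le hl _)⟩
  exact (hp ⟨w.bypass, w.bypass_isPath⟩).trans (wl_bypass hl w)

/-! ### darts -/

variable {U P : Set V} {τ ct c s : V → ℝ}

open Classical in
/-- The value of the coordinate on the dart `e = (v, b)`, `v ∈ U`, `b ∉ U`. -/
noncomputable def dv (l : Sym2 V → ℝ) (P : Set V) (τ ct : V → ℝ) (e : V × V) : ℝ :=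
  if e.2 ∈ P then τ e.2 else l s(e.1, e.2) + ct e.1

theorem dv_mem {e : V × V} (h : e.2 ∈ P) : dv l P τ ct e = τ e.2 := if_pos h

theorem dv_not {e : V × V} (h : e.2 ∉ P) : dv l P τ ct e = l s(e.1, e.2) + ct e.1 := if_neg h

/-- Foreign darts start at vertices with `s = 1`. -/
theorem s_foreign (hc : IsCoord G l U P τ ct c s) {v b : V} (hv : v ∈ U) (hb : b ∉ U)
    (hbP : b ∉ P) (h : G.Adj v b) : s v = 1 ∧ c v = ct v :=
  ⟨hc.sS v ⟨hv, b, hb, hbP, h⟩, hc.cS v ⟨hv, b, hb, hbP, h⟩⟩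

/-- The slope of the coordinate on a dart is at most `s`. -/
theorem dv_sub (hc : IsCoord G l U P τ ct c s) (hl : ∀ e ∈ G.edgeSet, 0 < l e) {v b : V}
    (hv : v ∈ U) (hb : b ∉ U) (h : G.Adj v b) :
    |c v - dv l P τ ct (v, b)| ≤ s v * l s(v, b) := by
  by_cases hbP : b ∈ P
  · rw [dv_mem (e := (v, b)) hbP]
    exact hc.dart v b hv hbP h
  · obtain ⟨h1, h2⟩ := s_foreign hc hv hb hbP h
    rw [dv_not (e := (v, b)) hbP, h1, h2, one_mul]
    have := hl _ (G.mem_edgeSet.2 h)
    change |ct v - (l s(v, b) + ct v)| ≤ _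
    rw [abs_le]
    constructor <;> linarith

theorem edge_le (hc : IsCoord G l U P τ ct c s) (hl : ∀ e ∈ G.edgeSet, 0 < l e) {u v : V}
    (hu : u ∈ U) (hv : v ∈ U) (h : G.Adj u v) : |c u - c v| ≤ l s(u, v) := by
  refine (hc.edge u v hu hv h).trans ?_
  have := hl _ (G.mem_edgeSet.2 h)
  have h1 : min (s u) (s v) ≤ 1 := (min_le_left _ _).trans (hc.s1 u)
  nlinarith

/-- The coordinate is nonexpansive along walks inside `U`. -/
theorem c_walk (hc : IsCoord G l U P τ ct c s) (hl : ∀ e ∈ G.edgeSet, 0 < l e) {x y : V}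
    (w : G.Walk x y) (hw : ∀ z ∈ w.support, z ∈ U) : |c x - c y| ≤ wl l w := by
  induction w with
  | nil => simp
  | @cons u v z h w ih =>
    rw [wl_cons]
    have hu : u ∈ U := hw u (by simp)
    have hv : v ∈ U := hw v (by simp)
    refine (abs_sub_le _ (c v) _).trans (add_le_add (edge_le hc hl hu hv h) ?_)
    exact ih fun z hz => hw z (by simp [hz])

theorem dart_le (hc : IsCoord G l U P τ ct c s) (hl : ∀ e ∈ G.edgeSet, 0 < l e) {v b : V}
    (hv : v ∈ U) (hb : b ∉ U) (h : G.Adj v b) : |c v - dv l P τ ct (v, b)| ≤ l s(v, b) := by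
  refine (dv_sub hc hl hv hb h).trans ?_
  have := hl _ (G.mem_edgeSet.2 h)
  have h1 := hc.s1 v
  nlinarith

/-- Vertices against darts. -/
theorem c_dart (hc : IsCoord G l U P τ ct c s) (hl : ∀ e ∈ G.edgeSet, 0 < l e) {x v b : V}
    (w : G.Walk x v) (hw : ∀ z ∈ w.support, z ∈ U) (hb : b ∉ U) (h : G.Adj v b) :
    |c x - dv l P τ ct (v, b)| ≤ wl l w + l s(v, b) :=
  (abs_sub_le _ (c v) _).trans (add_le_add (c_walk hc hl w hw)
    (dart_le hc hl (hw v w.end_mem_support) hb h))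

/-- Darts against darts. -/
theorem dart_dart (hc : IsCoord G l U P τ ct c s) (hl : ∀ e ∈ G.edgeSet, 0 < l e)
    {v b v' b' : V} (w : G.Walk v v') (hw : ∀ z ∈ w.support, z ∈ U) (hb : b ∉ U)
    (h : G.Adj v b) (hb' : b' ∉ U) (h' : G.Adj v' b') :
    |dv l P τ ct (v, b) - dv l P τ ct (v', b')| ≤ l s(v, b) + wl l w + l s(v', b') := by
  have h1 := dart_le hc hl (hw v w.start_mem_support) hb h
  have h2 := c_dart hc hl w hw hb' h'
  rw [abs_sub_comm] at h1
  refine (abs_sub_le _ (c v) _).trans ?_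
  linarith

/-! ### CONTROL -/

variable {w₁ ctw cw sw ct0 c0 s0 : V → ℝ}

/-- Property (a) of a piece. -/
def PieceA (G : SimpleGraph V) (l : Sym2 V → ℝ) (U P : Set V) (w₁ : V → ℝ) : Prop :=
  ∀ b ∈ P, ∀ b' ∈ P, ∀ v v' (w : G.Walk v v'), (∀ z ∈ w.support, z ∈ U) → G.Adj v b →
    G.Adj v' b' → w₁ b' - w₁ b ≤ l s(v, b) + wl l w + l s(v', b')

/-- The value of the `0`-coordinate on a foreign dart bounds the distance to some point `a` of the
piece, and the distance of the values of the `w`-coordinate. -/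
theorem ctrl_pt (hl : ∀ e ∈ G.edgeSet, 0 < l e) (ha : PieceA G l U P w₁)
    (hw : IsCoord G l U P w₁ ctw cw sw) (h0 : IsCoord G l U P (fun _ => 0) ct0 c0 s0)
    {v b : V} (hv : v ∈ U) (hbP : b ∉ P) (h : G.Adj v b) :
    ∃ a ∈ P, pathDist G l b a ≤ dv l P (fun _ => 0) ct0 (v, b) ∧
      |dv l P w₁ ctw (v, b) - w₁ a| ≤ dv l P (fun _ => 0) ct0 (v, b) := by
  obtain ⟨v', a, w, hwU, haP, hadj, hct⟩ := h0.ct_att v hv
  obtain ⟨v'', a', w', hwU', haP', hadj', hct'⟩ := hw.ct_att v hv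
  have hlb := hl _ (G.mem_edgeSet.2 h)
  refine ⟨a, haP, ?_, ?_⟩
  · rw [dv_not (e := (v, b)) hbP]
    have h1 := pd_le hl ((Walk.cons h.symm w).concat hadj)
    rw [wl_concat, wl_cons, Sym2.eq_swap] at h1
    change pathDist G l b a ≤ l s(v, b) + ct0 v
    linarith
  · rw [dv_not (e := (v, b)) hbP, dv_not (e := (v, b)) hbP]
    change |l s(v, b) + ctw v - w₁ a| ≤ l s(v, b) + ct0 v
    have h1 := hw.ct_le v v' a w hwU haP hadj
    have h2 := ha a' haP' a haP v'' v' (w'.reverse.append w) (by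
      intro z hz
      rw [Walk.mem_support_append_iff, Walk.support_reverse, List.mem_reverse] at hz
      rcases hz with hz | hz
      · exact hwU' z hz
      · exact hwU z hz) hadj' hadj
    rw [wl_append, wl_reverse] at h2
    rw [abs_le]
    constructor <;> linarith

/-- **CONTROL.** For darts `e = (v, b)`, `e' = (v', b')` of the domain `U` with `b'` in the piece
`P`: the distance of `b`, `b'` is bounded by the difference of the two coordinates of `P`. -/
theorem ctrl (hc : G.Connected) (hl : ∀ e ∈ G.edgeSet, 0 < l e) (ha : PieceA G l U P w₁)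
    (hb : ∀ b ∈ P, ∀ b' ∈ P, pathDist G l b b' ≤ |w₁ b - w₁ b'|)
    (hw : IsCoord G l U P w₁ ctw cw sw) (h0 : IsCoord G l U P (fun _ => 0) ct0 c0 s0)
    {v b v' b' : V} (hv : v ∈ U) (h : G.Adj v b) (hb' : b' ∈ P) :
    pathDist G l b b' ≤
      2 * |dv l P (fun _ => 0) ct0 (v, b) - dv l P (fun _ => 0) ct0 (v', b')| +
        |dv l P w₁ ctw (v, b) - dv l P w₁ ctw (v', b')| := by
  rw [dv_mem (e := (v', b')) hb', dv_mem (e := (v', b')) hb']
  change pathDist G l b b' ≤ 2 * |dv l P (fun _ => 0) ct0 (v, b) - 0| +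
    |dv l P w₁ ctw (v, b) - w₁ b'|
  by_cases hbP : b ∈ P
  · rw [dv_mem (e := (v, b)) hbP, dv_mem (e := (v, b)) hbP]
    have := hb b hbP b' hb'
    change pathDist G l b b' ≤ 2 * |0 - 0| + |w₁ b - w₁ b'|
    simpa using this
  · obtain ⟨a, haP, h1, h2⟩ := ctrl_pt hl ha hw h0 hv hbP h
    have h3 := hb a haP b' hb'
    have h4 := pd_tri hc hl b a b'
    have h5 : |w₁ a - w₁ b'| ≤ |dv l P w₁ ctw (v, b) - w₁ a| + |dv l P w₁ ctw (v, b) - w₁ b'| := by
      rw [abs_sub_comm (dv l P w₁ ctw (v, b)) (w₁ a)]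
      exact abs_sub_le _ _ _
    have h6 : dv l P (fun _ => 0) ct0 (v, b) ≤ |dv l P (fun _ => 0) ct0 (v, b) - 0| := by
      rw [sub_zero]
      exact le_abs_self _
    linarith

/-! ### the way out of `U` -/

/-- A walk from `x ∈ U` to a vertex outside `U` contains a walk in `U` followed by a dart. -/
theorem exit_walk {x y : V} (w : G.Walk x y) (l : Sym2 V → ℝ) (hx : x ∈ U)
    (hy : y ∉ U) : ∃ v b, ∃ w' : G.Walk x v, ∃ r : G.Walk b y, (∀ z ∈ w'.support, z ∈ U) ∧
      b ∉ U ∧ G.Adj v b ∧ wl l w = wl l w' + l s(v, b) + wl l r := by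
  induction w with
  | nil => exact absurd hx hy
  | @cons u v z h w ih =>
    by_cases hv : v ∈ U
    · obtain ⟨v', b, w', r, h1, h2, h3, h4⟩ := ih hv hy
      refine ⟨v', b, Walk.cons h w', r, ?_, h2, h3, ?_⟩
      · intro z hz
        rw [Walk.support_cons, List.mem_cons] at hz
        rcases hz with rfl | hz
        · exact hx
        · exact h1 z hz
      · rw [wl_cons, wl_cons, h4]
        ring
    · refine ⟨u, v, Walk.nil, w, ?_, hv, h, ?_⟩
      · intro z hz
        rw [Walk.support_nil, List.mem_singleton] at hz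
        rw [hz]
        exact hx
      · rw [wl_cons, wl_nil]
        ring

/-- A nearest vertex outside `U` is reached inside `U`. -/
theorem exists_near [Finite V] (hc : G.Connected) (hl : ∀ e ∈ G.edgeSet, 0 < l e) {x : V}
    (hx : x ∈ U) (hne : ∃ y, y ∉ U) : ∃ v b, ∃ w : G.Walk x v, (∀ z ∈ w.support, z ∈ U) ∧
      b ∉ U ∧ G.Adj v b ∧ wl l w + l s(v, b) = pathDist G l x b ∧
      ∀ y, y ∉ U → pathDist G l x b ≤ pathDist G l x y := by
  obtain ⟨y, hy, hmin⟩ := Set.exists_min_image Uᶜ (fun y => pathDist G l x y) (Set.toFinite _) hne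
  obtain ⟨w, -, hw⟩ := exists_geod hc hl x y
  obtain ⟨v, b, w', r, h1, h2, h3, h4⟩ := exit_walk w l hx hy
  have h5 := pd_le hl (w'.concat h3)
  rw [wl_concat] at h5
  have h6 := hmin b h2
  have h7 := wl_nonneg hl r
  refine ⟨v, b, w', h1, h2, h3, by linarith, fun y' hy' => ?_⟩
  have h8 := hmin y' hy'
  linarith

/-- The coordinates of two points of `U` in terms of their distance: if `x` is near the dart `e`
and `y` near the dart `e'`, then one of the two coordinates of the piece of `e'` separates them. -/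
theorem ctrl_points (hc : G.Connected) (hl : ∀ e ∈ G.edgeSet, 0 < l e) (ha : PieceA G l U P w₁)
    (hb : ∀ b ∈ P, ∀ b' ∈ P, pathDist G l b b' ≤ |w₁ b - w₁ b'|)
    (hw : IsCoord G l U P w₁ ctw cw sw) (h0 : IsCoord G l U P (fun _ => 0) ct0 c0 s0)
    (hUP : Disjoint U P) {x y v b v' b' : V} (w : G.Walk x v) (hwU : ∀ z ∈ w.support, z ∈ U)
    (hbU : b ∉ U) (h : G.Adj v b) (w' : G.Walk y v') (hwU' : ∀ z ∈ w'.support, z ∈ U)
    (h' : G.Adj v' b') (hb' : b' ∈ P) :
    pathDist G l x y ≤ 2 * |c0 x - c0 y| + |cw x - cw y| +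
      4 * (wl l w + l s(v, b)) + 4 * (wl l w' + l s(v', b')) := by
  have hbU' : b' ∉ U := fun hh => hUP.le_bot ⟨hh, hb'⟩
  have e1 := ctrl hc hl ha hb hw h0 (hwU v w.end_mem_support) h hb' (v' := v')
  have e2 := c_dart h0 hl w hwU hbU h
  have e3 := c_dart h0 hl w' hwU' hbU' h'
  have e4 := c_dart hw hl w hwU hbU h
  have e5 := c_dart hw hl w' hwU' hbU' h'
  have e6 := pd_tri hc hl x b y
  have e7 := pd_tri hc hl b b' y
  have e8 := pd_le hl (w.concat h)
  have e9 := pd_le hl (w'.concat h').reverse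
  rw [wl_concat] at e8
  rw [wl_reverse, wl_concat] at e9
  rw [abs_le] at e2 e3 e4 e5
  have e10 : |dv l P (fun _ => 0) ct0 (v, b) - dv l P (fun _ => 0) ct0 (v', b')| ≤
      |c0 x - c0 y| + (wl l w + l s(v, b)) + (wl l w' + l s(v', b')) := by
    have h1 := le_abs_self (c0 x - c0 y)
    have h2 := neg_abs_le (c0 x - c0 y)
    rw [abs_le]
    constructor <;> linarith
  have e11 : |dv l P w₁ ctw (v, b) - dv l P w₁ ctw (v', b')| ≤
      |cw x - cw y| + (wl l w + l s(v, b)) + (wl l w' + l s(v', b')) := by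
    have h1 := le_abs_self (cw x - cw y)
    have h2 := neg_abs_le (cw x - cw y)
    rw [abs_le]
    constructor <;> linarith
  linarith

end Vale.Agent.P235.LL.H21
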